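import Vale.Agent.N183X.Main

/-!
The finite lattice representation problem is equivalent to its case of intervals in almost simple
groups whose socle is not on the list of the classification of finite simple groups.
-/

namespace Vale.Agent.Results.P183.A0Exotic

open Vale.Agent.P183 Vale.Agent.P183PK Vale.Agent.P183KG Vale.Agent.N183X

theorem result :
    ∃ d : ℕ, ∀ c : ℕ,
      -- (1) the answer is positive iff every finite lattice is an interval `[H, G]` with
      -- `Inn S ≤ G ≤ Aut S` for a finite simple group `S` that is not listed
      ((∀ (L : Type) [Lattice L] [Finite L] [Nonempty L], Representable L) ↔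
        ∀ (Λ : Type) [Lattice Λ] [Finite Λ] [Nonempty Λ],
          ∃ (S : Type) (_ : Group S), Exotic d c S ∧ Carries S Λ) ∧
      -- (2) for each `Λ` and `k` one lattice `L` forces a tower of `k + 1` such groups
      ∀ (Λ : Type) [Lattice Λ] [Finite Λ] [Nonempty Λ] (k : ℕ),
        ∃ (L : Type) (_ : Lattice L) (_ : Finite L) (_ : Nonempty L),
          (∀ (G : Type) [Group G] [Finite G] (H : Subgroup G),
            Nonempty (L ≃o {K : Subgroup G // H ≤ K}) →
            ∃ (S : Type) (_ : Group S), IsSection S G ∧ Tower d c Λ k S) ∧
          ∀ A : FiniteAlgebra, Nonempty (L ≃o A.Con) →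
            ∃ (G S : Type) (_ : Group G) (_ : Group S),
              PolGroup A G ∧ IsSection S G ∧ Tower d c Λ k S :=
  N183X.main.imp fun _ h c => (h c).2

end Vale.Agent.Results.P183.A0Exotic
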